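import Crest.Agent.X212.Tw40.Main
import Crest.Agent.X212.Lns95.Sw
import Crest.Agent.X212.Lns4.Lin
import Crest.Agent.X212.Dfl49.Fil

/-!
# Row 212, LIX-FLIP (helper40): the flat point of the flipped line with the limit of a level one point
-/

set_option autoImplicit false
set_option linter.unusedSectionVars false
noncomputable section
open scoped Manifold ContDiff Topology InnerProductSpace Real
open MeasureTheory Set Function Filter
open Crest.Agent.R208.F (Ext)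

namespace Crest.Agent.X212.Flp40
open An Nd18 Qab60 Lns95 Pj41 Cyf70
open Num57 hiding c1 c2 c2_smul
open M (Mf)
open Tmp64 (AdmOn Eq0 admOn_univ)
open Eqv71 (cj opL_cj ad0)
open Dfl49 (PI Fz)
open Dr59 (dM Dg)
open Abel74 (fm fF)
open Wz78 (fL)
open Line51 (ang CSm)
open Glue52 (dir)
open Lix26 (Mdl)

section alg
variable {a b : Type} [Fintype a] [Fintype b] [DecidableEq a] [DecidableEq b]

theorem cs_aux {X : En a} {Y : En b} {T : CL (Eu b) (Eu a)} (hX : Skw X) (hY : Skw Y)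
    (h : X ∘L T = T ∘L Y) (h2 : X ∘L X ∘L T = -T) (z : Circle) :
    ad (csE X (z⁻¹ : Circle)) ∘L T ∘L ad (csE Y z) = T := by
  have n := Complex.normSq_apply _ ▸ Circle.normSq_coe z
  simp only [csE, ad_add, ad_smul, ad_one, ad_skew.2 hX, ad_skew.2 hY, Circle.coe_inv_eq_conj,
    Complex.conj_re, Complex.conj_im]
  simp only [ContinuousLinearMap.add_comp, ContinuousLinearMap.comp_add,
    ContinuousLinearMap.smul_comp, ContinuousLinearMap.comp_smul, ContinuousLinearMap.neg_comp,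
    ContinuousLinearMap.comp_neg, ContinuousLinearMap.one_def, ContinuousLinearMap.id_comp,
    ContinuousLinearMap.comp_id, ← h, h2]
  linear_combination (norm := module) n • T

theorem itw {u : CL (Eu a) (Eu b)} {p : En a} {q : En b} (k : CIso u p q) {ξ : HS a}
    (h : p * opL ξ = opL ξ) (h' : opL ξ * p = opL ξ) :
    opL (cj u ξ) ∘L u = u ∘L opL ξ ∧ opL ξ ∘L ad u = ad u ∘L opL (cj u ξ) := by
  simp only [opL_cj, ← ad_trn, ContinuousLinearMap.comp_assoc, k.src]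
  simp only [← ContinuousLinearMap.comp_assoc, k.src]
  exact ⟨by rw [ContinuousLinearMap.comp_assoc]; exact congrArg _ h', congrArg (· ∘L ad u) h.symm⟩

theorem itw3 {c : Type} [Fintype c] [DecidableEq c] {X : En a} {Y : En b} {η : HS c}
    {v : CL (Eu b) (Eu a)} {u : En b} {w : CL (Eu c) (Eu b)} (h1 : X ∘L v = v ∘L Y)
    (h2 : Y ∘L u = -u ∘L Y) (h3 : Y ∘L w = w ∘L opL η) :
    X ∘L v ∘L u ∘L w = (v ∘L u ∘L w) ∘L opL (-η) := by
  rw [← ContinuousLinearMap.comp_assoc, h1, ContinuousLinearMap.comp_assoc,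
    ← ContinuousLinearMap.comp_assoc Y, h2, ContinuousLinearMap.neg_comp,
    ContinuousLinearMap.comp_assoc, h3]
  simp only [map_neg, ContinuousLinearMap.comp_neg, ContinuousLinearMap.comp_assoc]

theorem par_alg {d T : CL (Eu b) (Eu a)} {W X : En a} {V Y : En b} {k k' : ℝ}
    (h : d + (W + k' • X) ∘L T - T ∘L V = 0) (h' : X ∘L T = T ∘L Y) (e : k' = -k) :
    d + W ∘L T - T ∘L (V + k • Y) = 0 := by
  rw [← h, e, ContinuousLinearMap.add_comp, ContinuousLinearMap.comp_add,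
    ContinuousLinearMap.smul_comp, ContinuousLinearMap.comp_smul, h']
  module

end alg

variable {Y : Mf 3} [CompactSpace Y.M] {κ : Type} [Fintype κ] {lam : Type} [Fintype lam]
  {E : Type} [NormedAddCommGroup E] [NormedSpace ℝ E] [FiniteDimensional ℝ E]
  [MeasurableSpace E] [BorelSpace E]
  {HM : Type} [TopologicalSpace HM] {I : ModelWithCorners ℝ E HM} [I.Boundaryless]
  {M : Type} [TopologicalSpace M] [ChartedSpace HM M] [IsManifold I ∞ M] [T2Space M]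
  [MeasurableSpace M] [BorelSpace M] [SecondCountableTopology M] {Ω : Set M} {r : ℕ}

section gen
variable {ι : Type} [Fintype ι] {B : Base M ι lam} {G : Geo I M ι lam} {c : Cfg M ι lam r}
  {ξ : M → c.m.A}

theorem ab_con (A : Ab B G Ω c ξ) : Ab B G Ω c.con ξ :=
  ⟨⟨A.adm.ok, A.adm.conn, contMDiff_const, fun _ => map_zero _, .inl rfl⟩, A.rd, fun _ _ => rfl⟩

/-- an abelian anti-self-dual point of level `1` -/
theorem sl_half (hB : B.OK I) (hG : G.OK B) (hΩ : IsClopen Ω) (A : Ab B G Ω c ξ) (ok : OK G.F B.o)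
    (e : ∀ x ∈ Ω, c.m.p2 B x (c.m.Fg G.F c.W x) = 0) (i : IntegrableOn (c.m.kd B G.F c.W) Ω G.F.μ)
    (l : ∫ x in Ω, c.m.kd B G.F c.W x ∂G.F.μ = 1) :
    Sl B G Ω ((1 / 2 : ℝ) • fm G.F c.m c.W ξ) := by
  obtain ⟨-, h2, h3, h4⟩ := Qa50.addStmt I M ι lam 0 B G Ω c.con ξ hB hG hΩ (ab_con A)
  have a : ∀ x ∈ Ω, hs G.F B.o x (c2 G.F (fm G.F c.m c.W ξ) x) = 0 := fun x hx =>
    PiLp.ext fun s => (smul_eq_zero.1 (congrArg (· s) ((h2 x hx).1.symm.trans (sub_eq_zero.2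
      ((e x hx).trans (show c.m.mu B x 0 0 = 0 by simp [Md.mu, Md.q, rk1, ← Pi.zero_def]).symm))) :
      _ • ξ x = 0)).resolve_right (h4 x hx)
  have k : ∀ x, ⟪c2 G.F (fm G.F c.m c.W ξ) x, Qab60.st B.o x (c2 G.F (fm G.F c.m c.W ξ) x)⟫_ℝ =
      Ω.indicator (fun x => -(8 * π ^ 2) * c.m.kd B G.F c.W x) x := fun x => by
    by_cases hx : x ∈ Ω
    · rw [indicator_of_mem hx, kd_ab hB hG A hx]; field_simp
    · rw [indicator_of_notMem hx, c2_of_zero (A.rd.fm_off hx), inner_zero_left]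
  have n : ∀ x, ‖c2 G.F (fm G.F c.m c.W ξ) x‖ ^ 2 =
      Ω.indicator (fun x => (8 * π ^ 2) * c.m.kd B G.F c.W x) x := fun x => by
    by_cases hx : x ∈ Ω
    · have := k x
      rw [inner_st ok, a x hx, indicator_of_mem hx] at this
      rw [norm_c2_sq ok, a x hx, indicator_of_mem hx]
      simp only [norm_zero] at this ⊢
      linarith
    · rw [indicator_of_notMem hx, c2_of_zero (A.rd.fm_off hx), norm_zero, sq, mul_zero]
  have q : Sq G.F (fm G.F c.m c.W ξ) :=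
    (memLp_two_iff_integrable_sq_norm (sm_c2 h3.fo.sm).continuous.aestronglyMeasurable).2 (by
      simp only [n]
      exact (integrable_indicator_iff hΩ.isOpen.measurableSet).2 (i.const_mul _))
  refine ⟨h3.smul _, fun x hx => by rw [c2_smul, Pi.smul_apply, map_smul, a x hx, smul_zero],
    by rw [Sq, c2_smul]; exact q.const_smul _, ?_⟩
  rw [Qab60.integ_mul ok (h3.smul _).fo.dg]
  simp only [c2_smul, Pi.smul_apply, map_smul, real_inner_smul_left, real_inner_smul_right, k,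
    integral_const_mul]
  rw [integral_indicator hΩ.isOpen.measurableSet, integral_const_mul, l]
  ring

end gen

variable [DecidableEq lam] {D D' : YD Y.I Y.M κ (lam ⊕ lam)}
  {B B' : Base M (Option κ) (lam ⊕ lam)} {G G' : Geo I M (Option κ) (lam ⊕ lam)} {K : Nk D B G}
  {K' : Nk D' B' G'} {d : Mdl K Ω}

theorem cov (d : Mdl K Ω) : d.Ds.O false ∪ d.Ds.O true = Ω :=
  Set.ext fun x => ((d.Ds.cov x).trans Bool.exists_bool).symm

theorem pot (d : Mdl K Ω) (t : ℝ) (b : Bool) :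
    Dr59.Sm I (d.Ds.O b) (t • d.al b) ∧ Dg 1 (d.Ds.O b) (t • d.al b) :=
  ⟨fun x hx => (Lns4.smAt_al d.P d.μ ((d.Ds.ch b).su x hx) ((d.Ds.ch b).sw x hx)).smul t,
    fun _ _ => (Dr59.isDeg_io _).smul t⟩

theorem d_pot (hd : d.OK) (t : ℝ) {b : Bool} {x : M} (hx : x ∈ d.Ds.O b) :
    dM I (t • d.al b) x = t • d.w x := by
  rw [hd.wa b x hx]
  exact Dr59.dM_smul (by simp) t (Lns4.smAt_al d.P d.μ ((d.Ds.ch b).su x hx) ((d.Ds.ch b).sw x hx))

theorem clutch (hd : d.OK) : ∃ e : M → Circle, ∀ x ∈ d.Ds.O false ∩ d.Ds.O true,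
    (CSm I e x ∧ ((1 / 2 : ℝ) • d.al true) x = ((1 / 2 : ℝ) • d.al false) x + ang I e x) ∧
    CSm I e⁻¹ x ∧ ((-(1 / 2) : ℝ) • d.al true) x = ((-(1 / 2) : ℝ) • d.al false) x + ang I e⁻¹ x := by
  obtain ⟨k, hk⟩ : ∃ k : ℤ, (k : ℝ) = -2 * d.μ := by
    rcases eq_or_eq_neg_of_abs_eq hd.hμ with e | e <;> rw [e]
    exacts [⟨-1, by norm_num⟩, ⟨1, by norm_num⟩]
  refine ⟨(fun x => dir (d.Ds.u false x)) ^ k, fun x hx => ?_⟩
  have c : CSm I (fun x => dir (d.Ds.u false x)) x :=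
    Rod53.cm_dir ((d.Ds.ch false).su x hx.1) (d.Ds.ne false x hx)
  have e := Lns4.al_chg d.P d.μ d.Ds (by norm_num) hx
  refine ⟨⟨c.zpow k, ?_⟩, (c.zpow k).inv, ?_⟩ <;>
    simp only [Line51.ang_inv (c.zpow k), Line51.ang_zpow c, hk, Pi.smul_apply, e] <;> push_cast <;> module

/-- the curvature of a level one point is moved to that of the line -/
theorem norm1 (hl : LimaStmt D I M) (hc : ClsStmt D I M) {w : M → Ext E} (i : Ins K Ω w)
    {c : Cfg M (Option κ) (lam ⊕ lam) r} {ξ : M → c.m.A} (A : Ab B G Ω c ξ)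
    (S : Sl B G Ω ((1 / 2 : ℝ) • fm G.F c.m c.W ξ)) {β : YC Y.M κ (lam ⊕ lam)} {ζ : Circle}
    (hβ : D.Adm β) (L : K.Lim c β ζ atTop) : ∃ (c' : Cfg M (Option κ) (lam ⊕ lam) r) (η : M → c'.m.A),
      Ab B G Ω c' η ∧ fm G.F c'.m c'.W η = w ∧ K.Lim c' β ζ atTop := by
  obtain ⟨ε, T, d, a, hε, h0, hd, fa, oa, e, dc⟩ := (hc B G K Ω w _ i S).1
  have ad := fun (c : Cfg M (Option κ) (lam ⊕ lam) r) ξ A =>
    (Qa50.addStmt I M _ _ r B G Ω c ξ i.hB i.hG i.cl A).1 a fa oa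
  obtain ⟨A₀, e₀⟩ := ad _ _ (ab_neg A)
  obtain ⟨A₂, e₂⟩ := ad _ _ A₀
  have t : Ioi T ⊆ Dfl49.Te 1 0 := fun t ht => by simpa [Dfl49.Te] using h0.trans_lt ht
  have li := fun (c : Cfg M (Option κ) (lam ⊕ lam) r) ξ (A : Ab B G Ω c ξ) => hl r B G K c ξ β ζ T d a
    i.hD i.hB i.hG A.adm hβ (t.trans i.one.J) (A.rd.toRedOn.mono ((preimage_mono t).trans i.one.sub))
    hd fa dc
  have L₂ := li _ _ A₀ (li _ _ (ab_neg A) L)
  have e₃ := (e₂.trans (congrArg (· + dM I a) (e₀.trans (congrArg (· + dM I a) Abel74.fm_neg)))).trans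
    (show _ = (-ε) • w by linear_combination (norm := module) (-2 : ℝ) • e)
  rcases hε with rfl | rfl
  · exact ⟨_, _, ab_neg A₂, Abel74.fm_neg.trans ((congrArg (- ·) e₃).trans (by module)), L₂⟩
  · exact ⟨_, _, A₂, e₃.trans (by module), L₂⟩

theorem flip0 (hx : CjxStmt I M (Option κ) (lam ⊕ lam)) (hu : CjuStmt I M (Option κ) (lam ⊕ lam))
    (s : Same K K') (hP : B'.P = B.P) (ho : B'.o = B.o) (hF : G'.F = G.F) (hd : d.OK) (hB' : B'.OK I)
    (hG' : G'.OK B') (fl : ∀ x ∈ Ω, ∀ s, fL B' G' x s = -fL B G x s)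
    {c : Cfg M (Option κ) (lam ⊕ lam) 0} {ξ : M → c.m.A} (A : Ab B G Ω c ξ)
    (hw : fm G.F c.m c.W ξ = d.w) {β : YC Y.M κ (lam ⊕ lam)} {ζ : Circle} (hβ : D.Adm β)
    (L : K.Lim c β ζ atTop) {c₁ : Cfg M (Option κ) (lam ⊕ lam) r} (a₁ : AdmOn c₁ B' G' Ωᶜ) :
    ∃ (n : Cfg M (Option κ) (lam ⊕ lam) r) (ξ' : M → n.m.A) (v : M → CL c₁.m.V n.m.V),
      Ab B' G' Ω n ξ' ∧ Eq0 G'.F c₁ n Ωᶜ v ∧ (∀ x ∈ Ω, n.m.Fg G'.F n.W x = 0) ∧
      K'.Lim n.con β ζ atTop := by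
  classical
  have i := hd.ins
  have hO := fun b => (d.Ds.ch b).op
  have hs : ∀ b, d.Ds.O b ⊆ Ω := fun b x hx => (d.Ds.cov x).2 ⟨b, hx⟩
  obtain ⟨e, he⟩ := clutch hd
  obtain ⟨c₃, ξ₃, v, A₃, T₃, -⟩ := Tw40.tw1 i.hB i.hG i.cl A hO (cov d) (pot d _) fun x h => (he x h).2
  have e₃ : fm G.F c₃.m c₃.W ξ₃ = (-(-1) / 2 : ℝ) • d.w := funext fun x => by
    by_cases h : x ∈ Ω
    · obtain ⟨b, hb⟩ := (d.Ds.cov x).1 h
      rw [T₃.fm b x hb, hw, d_pot hd _ hb, Pi.smul_apply]; module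
    · rw [A₃.rd.fm_off h, Pi.smul_apply, image_eq_zero_of_notMem_tsupport fun k => h (i.cs.sub k),
        smul_zero]
  obtain ⟨k, hk⟩ := hx B B' G G' Ω i.hB i.hG hB' hG' hP ho hF i.cl.isOpen i.sc fl
  obtain ⟨u, p, hu⟩ := cju hu s i hB' hG' hk A₃ (.inr rfl) e₃
  have ao := fun {r} {B : Base M (Option κ) (lam ⊕ lam)} {G : Geo I M _ _} {c : Cfg M _ _ r}
    (a : c.Adm B G) S => (admOn_univ.2 a).mono (subset_univ S)
  have at' := hk.admOn (.inr rfl) hB' (ao A₃.adm Ω)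
  obtain ⟨n₁, η, u₁, v₁, N, e₁, p₁, j₁, f₁⟩ := Cay24.pstStmt r B' G' Ω (twM (-1) c₃.m k) c₃.W ξ₃ c₁ hB'
    hG' i.cl at'.ok at'.conn (hk.redOn A₃.rd.toRedOn) a₁
  obtain ⟨n, ξ', v', N', T', e'⟩ := Tw40.tw1 hB' hG' i.cl (ab_neg N) hO (cov d) (pot d _)
    fun x h => (he x h).1
  refine ⟨n, ξ', _, N', e₁.trans e', fun x h => PiLp.ext fun t => ?_, ?_⟩
  · obtain ⟨b, hb⟩ := (d.Ds.cov x).1 h
    have : fm G'.F n.m n.W ξ' x = 0 := by
      rw [T'.fm b x hb, Abel74.fm_neg, Pi.neg_apply, f₁ h, hk.fm_eq (A₃.rd.mem x h), e₃, d_pot hd _ hb,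
        Pi.smul_apply]
      module
    rw [N'.rd.Fg_eq hB' hG' N'.adm.ok N'.adm.conn h, ← Abel74.k2_fm hG' N'.adm.conn, k2, this, e2_zero,
      zero_smul]
    rfl
  set U := K.tm ⁻¹' Ioi 0
  have oU : IsOpen U := isOpen_Ioi.preimage K.cont
  have sU : U ⊆ Ω := (preimage_mono fun t ht => by simpa [Dfl49.Te] using ht).trans i.one.sub
  have C := fun b => (Tw40.ada_conn i.hB i.hG i.cl A (hO b) (hs b) (pot d (-(1 / 2)) b).1
    (pot d _ b).2).mono subset_union_left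
  have C' := fun b => (Tw40.ada_conn hB' hG' i.cl (ab_neg N) (hO b) (hs b) (pot d (1 / 2) b).1
    (pot d _ b).2).mono subset_union_left
  have q₁ := (p₁.iso.symm at'.ok (ao N.adm Ω).ok).mono sU
  have q₂ := fun b => (T₃.pi b).iso.symm (ao A.adm _).ok (ao A₃.adm _).ok
  have q₃ := fun b => (T'.pi b).iso.symm (ao N.adm _).ok (ao N'.adm _).ok
  have iT := fun b => ((q₁.trans p.iso).mono inter_subset_right).trans
    ((q₂ b).mono (inter_subset_left (t := U)))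
  have pT := fun b => ((((hF ▸ p₁.par.symm p₁.iso.su at'.conn.sk (ao N.adm Ω).conn.sk).mono sU).trans
    p.par q₁.su p.iso.su).mono inter_subset_right).trans (((T₃.pi b).par.symm (T₃.pi b).iso.su (C b).sk
      (ao A₃.adm _).conn.sk).mono (inter_subset_left (t := U)))
      ((q₁.trans p.iso).mono inter_subset_right).su ((q₂ b).mono inter_subset_left).su
  have hT : ∀ b, ∀ x ∈ d.Ds.O b ∩ U, opL (ξ x) ∘L ad (v b x) ∘L u x ∘L ad (u₁ x) =
      (ad (v b x) ∘L u x ∘L ad (u₁ x)) ∘L opL (-η x) := fun b x hx => by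
    have g := A.rd.mem x (sU hx.2)
    have g₃ := A₃.rd.mem x (sU hx.2)
    have h1 := (itw ((T₃.pi b).iso.iso x hx.1) (Wz78.g_p g) (Wz78.g_p' A.adm.ok g)).2
    have h2 := (itw (p := c₃.m.p x) (p.iso.iso x hx.2) (Wz78.g_p g₃) (Wz78.g_p' A₃.adm.ok g₃)).1
    have h3 := (itw (p := c₃.m.p x) (p₁.iso.iso x (sU hx.2)) (Wz78.g_p g₃) (Wz78.g_p' A₃.adm.ok g₃)).2
    erw [← T₃.cj b x hx.1] at h1
    erw [hu x hx.2, map_neg, ContinuousLinearMap.neg_comp, neg_eq_iff_eq_neg] at h2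
    erw [← j₁ x (sU hx.2)] at h3
    exact itw3 h1 h2 h3
  have iG := fun b => ((q₃ b).mono inter_subset_left).trans (iT b)
  have pG := fun b => Par0.trans (W'' := c.W) ((hF ▸ (T'.pi b).par.symm (T'.pi b).iso.su (C' b).sk
    (ao N'.adm _).conn.sk).mono (inter_subset_left (t := U))) (fun x hx a => by
      have h1 := pT b x hx a
      rw [Tw40.ada_W] at h1 ⊢
      exact par_alg h1 (hT b x hx) (by simp only [k1, Pi.smul_apply, e1_smul, neg_mul])) ((q₃ b).mono inter_subset_left).su (iT b).su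
  obtain ⟨g, hg⟩ : ∃ g : M → CL n.m.V c.m.V, ∀ b, EqOn g
      (fun x => (ad (v b x) ∘L u x ∘L ad (u₁ x)) ∘L ad (v' b x)) (d.Ds.O b ∩ U) := by
    refine ⟨(d.Ds.O false).piecewise (fun x => (ad (v false x) ∘L u x ∘L ad (u₁ x)) ∘L ad (v' false x))
      fun x => (ad (v true x) ∘L u x ∘L ad (u₁ x)) ∘L ad (v' true x), fun b x hx => ?_⟩
    by_cases h : x ∈ d.Ds.O false
    · rw [piecewise_eq_of_mem _ _ _ h]
      cases b
      · rfl
      have g := A.rd.mem x (sU hx.2)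
      have := cs_aux (Wz78.g_skw g) (Wz78.g_skw ((ab_neg N).rd.mem x (sU hx.2))) (hT false x ⟨h, hx.2⟩)
        (by rw [← ContinuousLinearMap.comp_assoc, ← ContinuousLinearMap.mul_def, A.rd.sq x (sU hx.2),
          ContinuousLinearMap.neg_comp]; exact congrArg (- ·) ((iT false).iso x ⟨h, hx.2⟩).left) (e x)
      simp only [T₃.tr x ⟨h, hx.1⟩, T'.tr x ⟨h, hx.1⟩, ad_comp, zpow_one, Pi.inv_apply]
      exact (congrArg (· ∘L ad (v' false x)) this).symm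
    · cases b; exacts [(h hx.1).elim, piecewise_eq_of_notMem _ _ _ h]
  have ex : ∀ x ∈ U, ∃ b, x ∈ d.Ds.O b ∩ U := fun x h => ((d.Ds.cov x).1 (sU h)).imp fun _ k => ⟨k, h⟩
  exact s.lim hβ (ad0 A.adm) (ad0 (ab_con N').adm) isOpen_Ioi (Ioi_mem_atTop 0) (g := g)
    (iso0_of_local fun x h => let ⟨b, k⟩ := ex x h; ⟨_, k, (iG b).congr ((hO b).inter oU) (hg b)⟩)
    (fun x h => let ⟨b, k⟩ := ex x h; (pG b).congr ((hO b).inter oU) (hg b) x k)
    (fun x h => (A.z x (sU h)).trans (map_zero _).symm) L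

/-- **FLIP**, the gauge half: a flat point of the flipped line with the same limit -/
theorem flip (hx : CjxStmt I M (Option κ) (lam ⊕ lam)) (hu : CjuStmt I M (Option κ) (lam ⊕ lam))
    (hl : LimaStmt D I M) (hc : ClsStmt D I M) {K' : Nk D B' G'} (s : Same K K') (hP : B'.P = B.P)
    (ho : B'.o = B.o) (hF : G'.F = G.F) (d : Mdl K Ω) (hd : d.OK) (hB' : B'.OK I) (hG' : G'.OK B')
    (fl : ∀ x ∈ Ω, ∀ s, fL B' G' x s = -fL B G x s) {c : Cfg M (Option κ) (lam ⊕ lam) r}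
    {ξ : M → c.m.A} (A : Ab B G Ω c ξ) (asd : ∀ x ∈ Ω, c.m.p2 B x (c.m.Fg G.F c.W x) = 0)
    (i : IntegrableOn (c.m.kd B G.F c.W) Ω G.F.μ) (l : ∫ x in Ω, c.m.kd B G.F c.W x ∂G.F.μ = 1)
    {β : YC Y.M κ (lam ⊕ lam)} (hβ : Rdc90.Bs D β) (L : K.Lim c.con β 1 atTop) {r' : ℕ}
    {c₁ : Cfg M (Option κ) (lam ⊕ lam) r'} (a₁ : AdmOn c₁ B' G' Ωᶜ) :
    ∃ (n : Cfg M (Option κ) (lam ⊕ lam) r') (ξ' : M → n.m.A) (v : M → CL c₁.m.V n.m.V),
      Ab B' G' Ω n ξ' ∧ Eq0 G'.F c₁ n Ωᶜ v ∧ (∀ x ∈ Ω, n.m.Fg G'.F n.W x = 0) ∧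
      ∀ e, K'.ELim e n.con β 1 atTop := by
  have j := hd.ins
  obtain ⟨c', η, A', e', L'⟩ := norm1 hl hc j (ab_con A)
    (sl_half j.hB j.hG j.cl (ab_con A) j.tam.ok asd i l) hβ.adm L
  obtain ⟨n, ξ', v, N, e, f, H⟩ := flip0 hx hu s hP ho hF hd hB' hG' fl A' e' hβ.adm L' a₁
  have t : Ioi 0 ⊆ Dfl49.Te 1 0 := fun t ht => by simpa [Dfl49.Te] using ht
  have h : Ioi 0 ⊆ K'.J := by
    have := t.trans j.one.J
    rwa [Nk.J, ← s.p, ← s.q] at this
  have k : K'.tm ⁻¹' Ioi 0 ⊆ Ω := s.tm ▸ (preimage_mono t).trans j.one.sub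
  have a := (ab_con N).adm
  have z : Fz G'.F n.con Ω := ⟨f, fun _ _ => rfl⟩
  obtain ⟨-, g, p⟩ := Dfl49.lim_pi hβ.ok hβ.adm Bki64.isEnd_top j.cl.isOpen
    ((admOn_univ.2 a).mono (subset_univ _)) z isOpen_Ioi ordConnected_Ioi (Ioi_mem_atTop 0) h k H
  exact ⟨n, ξ', v, N, e, f, (Dfl49.lims_pi hβ a isOpen_Ioi (Ioi_mem_atTop 0) h (z.pb h k) p 1).2⟩

end Crest.Agent.X212.Flp40
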